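import Vale.Agent.P176.Statement
import Vale.Agent.P176.Bdl.B1

/-!
# P176: the little finitistic dimension conjecture is false

Over every field `K` of characteristic zero there is a finite-dimensional `K`-algebra `A` such
that the supremum of the projective dimensions of the finitely generated left `A`-modules of
finite projective dimension is infinite.
-/

open Vale.Agent.P176

universe u

theorem Vale.Agent.Results.P176.Main.result (K : Type u) [Field K] [CharZero K] :
    ∃ (A : Type u) (_ : Ring A) (_ : Algebra K A), Module.Finite K A ∧ findim A = ⊤ :=
  exists_findim_eq_top K
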